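import Vale.Agent.P238.Final

/-!
P238: the `ℓ₁`-distortion of the edit distance on `{0,1}^n` is at least
`c (log n)^2 / log log n`.
-/

namespace Vale.Agent.Results.P238.LogSquared

open _root_.P238

/-- `c₁({0,1}^n, ED) ≥ c (log n)² / log log n` for all `n ≥ n₀`, with an absolute `c > 0`. -/
theorem result :
    ∃ c : ℝ, 0 < c ∧ ∃ n₀ : ℕ, ∀ n : ℕ, n₀ ≤ n →
      c * (Real.log n) ^ 2 / Real.log (Real.log n) ≤ c1 (fun x y : Word n => (ed x y : ℝ)) :=
  ⟨1 / 101000000, by norm_num, 2 ^ 64, fun n hn => c1_lower n hn⟩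

end Vale.Agent.Results.P238.LogSquared
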